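import Vale.Agent.Lib.P052.Combi

open Vale.Agent.Lib.P052

namespace Vale.Agent.Results.P052.FewPoints

/-- Borsuk's conjecture holds for every finite set of at most `d + 4` points of `ℝ^d`:
such a set (with at least two points, i.e. of positive diameter) is a union of `d + 1` subsets
of strictly smaller diameter. -/
theorem result (d : ℕ) (X : Finset (EuclideanSpace ℝ (Fin d))) (h2 : 2 ≤ X.card)
    (h : X.card ≤ d + 4) :
    ∃ P : Fin (d + 1) → Set (EuclideanSpace ℝ (Fin d)),
      (⋃ i, P i) = (X : Set (EuclideanSpace ℝ (Fin d))) ∧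
      ∀ i, Metric.diam (P i) < Metric.diam (X : Set (EuclideanSpace ℝ (Fin d))) := by
  classical
  set D := Metric.diam (X : Set (EuclideanSpace ℝ (Fin d))) with hD
  have hbdd : Bornology.IsBounded (X : Set (EuclideanSpace ℝ (Fin d))) := X.finite_toSet.isBounded
  have hle : ∀ x ∈ X, ∀ y ∈ X, dist x y ≤ D := fun x hx y hy =>
    Metric.dist_le_diam_of_mem hbdd (by exact_mod_cast hx) (by exact_mod_cast hy)
  have hDpos : 0 < D := by
    obtain ⟨a, ha, b, hb, hab⟩ := Finset.one_lt_card.1 (by omega : 1 < X.card)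
    exact (dist_pos.2 hab).trans_le (hle a ha b hb)
  have hfr : Module.finrank ℝ (EuclideanSpace ℝ (Fin d)) = d := finrank_euclideanSpace_fin
  have hgood : Good D X (d + 1) := by
    by_cases c1 : X.card ≤ d + 1
    · obtain ⟨m, hm, hm'⟩ := sav_zero D X
      exact hm.mono (by omega)
    by_cases c2 : X.card = d + 2
    · obtain ⟨a, ha, b, hb, hab, hdab⟩ := exists_short_pair (S := X) (D := D) (by omega) hle
      obtain ⟨m, hm, hm'⟩ := sav_edge ha hb hab hdab (sav_zero D _)
      exact hm.mono (by omega)
    by_cases c3 : X.card = d + 3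
    · obtain ⟨m, hm, hm'⟩ := sav_two (S := X) (D := D) (by omega) hle
      exact hm.mono (by omega)
    · obtain ⟨m, hm, hm'⟩ := sav_three (S := X) (D := D) (by omega) hle
      exact hm.mono (by omega)
  obtain ⟨c, hc1, hc2⟩ := hgood
  refine ⟨fun i => {x | x ∈ X ∧ c x = i}, ?_, ?_⟩
  · ext x
    simp only [Set.mem_iUnion, Set.mem_ofPred_eq, Finset.mem_coe]
    constructor
    · rintro ⟨i, hx, _⟩
      exact hx
    · intro hx
      exact ⟨⟨c x, hc1 x hx⟩, hx, rfl⟩
  · intro i
    set F := X.filter (fun x => c x = i) with hF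
    have hset : {x | x ∈ X ∧ c x = (i : ℕ)} = (F : Set (EuclideanSpace ℝ (Fin d))) := by
      ext x
      simp [hF]
    show Metric.diam {x | x ∈ X ∧ c x = (i : ℕ)} < D
    rw [hset]
    by_cases hne : F.Nonempty
    · obtain ⟨pq, hpq, hmax⟩ := Finset.exists_max_image (F ×ˢ F) (fun p => dist p.1 p.2)
        (hne.product hne)
      have hp := (Finset.mem_product.1 hpq).1
      have hq := (Finset.mem_product.1 hpq).2
      have hlt : dist pq.1 pq.2 < D := by
        by_cases e : pq.1 = pq.2
        · rw [e, dist_self]; exact hDpos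
        · have hp' := Finset.mem_filter.1 hp
          have hq' := Finset.mem_filter.1 hq
          exact hc2 _ hp'.1 _ hq'.1 (hp'.2.trans hq'.2.symm) e
      refine lt_of_le_of_lt (Metric.diam_le_of_forall_dist_le dist_nonneg ?_) hlt
      intro x hx y hy
      exact hmax (x, y) (Finset.mem_product.2 ⟨by exact_mod_cast hx, by exact_mod_cast hy⟩)
    · rw [Finset.not_nonempty_iff_eq_empty] at hne
      rw [hne]
      simpa using hDpos

end Vale.Agent.Results.P052.FewPoints
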